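import Mathlib

/-!
# Talagrand's induction on the Hamming cube, pair form (helper53, P249)

`pl_cube`: if `g a ≤ f b + L * hammingDist a b` for all `a b : Fin K → Bool`, then
`(∑ a, exp (g a)) * (∑ b, exp (- f b)) ≤ 4 ^ K * exp (L ^ 2 * K / 4)`.
-/

namespace Vale.Agent.Lib.P249.H53

open Finset

theorem hammingDist_cons (K : ℕ) (x y : Bool) (a b : Fin K → Bool) :
    (hammingDist (Fin.cons x a : Fin (K + 1) → Bool) (Fin.cons y b) : ℝ)
      = (if x ≠ y then 1 else 0) + (hammingDist a b : ℝ) := by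
  unfold hammingDist
  rw [Finset.card_filter, Finset.card_filter, Fin.sum_univ_succ]
  simp only [Fin.cons_zero, Fin.cons_succ]
  push_cast
  rfl

/-- The two-point inequality behind the induction. -/
theorem two_point (L A0 A1 B0 B1 N : ℝ) (hL : 0 ≤ L)
    (hA0 : 0 ≤ A0) (hA1 : 0 ≤ A1) (hB0 : 0 < B0) (hB1 : 0 < B1) (hN : 0 ≤ N)
    (h00 : A0 * B0 ≤ N) (h11 : A1 * B1 ≤ N)
    (h01 : A0 * B1 ≤ Real.exp L * N) (h10 : A1 * B0 ≤ Real.exp L * N) :
    (A0 + A1) * (B0 + B1) ≤ N * (2 + Real.exp L + Real.exp (-L)) := by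
  have hE : 1 ≤ Real.exp L := Real.one_le_exp hL
  have hEpos : 0 < Real.exp L := Real.exp_pos L
  have hE' : Real.exp (-L) = (Real.exp L)⁻¹ := Real.exp_neg L
  set E := Real.exp L with hEdef
  rw [hE']
  -- key: cross terms
  have key : ∀ (A0 A1 B0 B1 : ℝ), 0 ≤ A0 → 0 ≤ A1 → 0 < B0 → 0 < B1 →
      A0 * B0 ≤ N → A1 * B1 ≤ N → A0 * B1 ≤ E * N → A1 * B0 ≤ E * N → B1 ≤ B0 →
      A0 * B1 + A1 * B0 ≤ N * (E + E⁻¹) := by
    intro A0 A1 B0 B1 hA0 hA1 hB0 hB1 h00 h11 h01 h10 hle
    -- A0 * B1 ≤ N * (B1 / B0)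
    have h1 : A0 * B1 ≤ N * (B1 / B0) := by
      have : A0 ≤ N / B0 := by rw [le_div_iff₀ hB0]; exact h00
      calc A0 * B1 ≤ N / B0 * B1 := by gcongr
        _ = N * (B1 / B0) := by ring
    by_cases hc : B0 ≤ E * B1
    · -- A1 * B0 ≤ N * (B0 / B1)
      have h2 : A1 * B0 ≤ N * (B0 / B1) := by
        have : A1 ≤ N / B1 := by rw [le_div_iff₀ hB1]; exact h11
        calc A1 * B0 ≤ N / B1 * B0 := by gcongr
          _ = N * (B0 / B1) := by ring
      -- r = B0 / B1 ∈ [1, E], r + 1/r ≤ E + 1/E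
      set r := B0 / B1 with hr
      have hr1 : 1 ≤ r := by rw [hr, le_div_iff₀ hB1]; linarith
      have hrE : r ≤ E := by rw [hr, div_le_iff₀ hB1]; exact hc
      have hrpos : 0 < r := by linarith
      have hinv : B1 / B0 = r⁻¹ := by rw [hr, inv_div]
      have hfin : r + r⁻¹ ≤ E + E⁻¹ := by
        have h3 : E + E⁻¹ - (r + r⁻¹) = (E - r) * (1 - (E * r)⁻¹) := by
          field_simp
          ring
        have h4 : (E * r)⁻¹ ≤ 1 := by
          apply inv_le_one_of_one_le₀
          nlinarith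
        nlinarith [mul_nonneg (sub_nonneg.mpr hrE) (sub_nonneg.mpr h4)]
      calc A0 * B1 + A1 * B0 ≤ N * r⁻¹ + N * r := by rw [← hinv]; linarith
        _ = N * (r + r⁻¹) := by ring
        _ ≤ N * (E + E⁻¹) := by gcongr
    · rw [not_le] at hc
      -- B1 / B0 < 1 / E
      have h2 : B1 / B0 ≤ E⁻¹ := by
        rw [div_le_iff₀ hB0, inv_mul_eq_div, le_div_iff₀ hEpos]
        linarith
      calc A0 * B1 + A1 * B0 ≤ N * (B1 / B0) + E * N := by linarith
        _ ≤ N * E⁻¹ + E * N := by gcongr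
        _ = N * (E + E⁻¹) := by ring
  have cross : A0 * B1 + A1 * B0 ≤ N * (E + E⁻¹) := by
    rcases le_total B1 B0 with hle | hle
    · exact key A0 A1 B0 B1 hA0 hA1 hB0 hB1 h00 h11 h01 h10 hle
    · have := key A1 A0 B1 B0 hA1 hA0 hB1 hB0 h11 h00 h10 h01 hle
      linarith
  nlinarith [cross]

theorem pl_cube : ∀ (K : ℕ) (L : ℝ), 0 ≤ L → ∀ (f g : (Fin K → Bool) → ℝ),
    (∀ a b, g a ≤ f b + L * (hammingDist a b : ℝ)) →
    (∑ a, Real.exp (g a)) * (∑ b, Real.exp (-f b)) ≤ 4 ^ K * Real.exp (L ^ 2 * K / 4) := by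
  intro K
  induction K with
  | zero =>
    intro L hL f g h
    have hu : (Finset.univ : Finset (Fin 0 → Bool)) = {fun i => i.elim0} := by
      ext x
      simp only [Finset.mem_univ, Finset.mem_singleton, true_iff]
      exact Subsingleton.elim _ _
    rw [hu, Finset.sum_singleton, Finset.sum_singleton]
    have h0 := h (fun i => i.elim0) (fun i => i.elim0)
    simp only [hammingDist_self, Nat.cast_zero, mul_zero, add_zero] at h0
    rw [← Real.exp_add]
    simp only [pow_zero, Nat.cast_zero, mul_zero, zero_div, Real.exp_zero, one_mul]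
    rw [← Real.exp_zero]
    apply Real.exp_le_exp.mpr
    linarith
  | succ K ih =>
    intro L hL f g h
    -- split sums along the first coordinate
    have split : ∀ F : (Fin (K + 1) → Bool) → ℝ,
        ∑ a, F a = ∑ a : Fin K → Bool, F (Fin.cons false a) + ∑ a : Fin K → Bool, F (Fin.cons true a) := by
      intro F
      rw [← (Fin.consEquiv (fun _ : Fin (K + 1) => Bool)).sum_comp F, Fintype.sum_prod_type]
      simp only [Fin.consEquiv, Equiv.coe_fn_mk, Fintype.sum_bool]
      exact add_comm _ _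
    rw [split, split]
    set A0 := ∑ a : Fin K → Bool, Real.exp (g (Fin.cons false a)) with hA0
    set A1 := ∑ a : Fin K → Bool, Real.exp (g (Fin.cons true a)) with hA1
    set B0 := ∑ b : Fin K → Bool, Real.exp (-f (Fin.cons false b)) with hB0
    set B1 := ∑ b : Fin K → Bool, Real.exp (-f (Fin.cons true b)) with hB1
    set N := (4 : ℝ) ^ K * Real.exp (L ^ 2 * K / 4) with hN
    have hA0pos : 0 ≤ A0 := Finset.sum_nonneg (fun _ _ => (Real.exp_pos _).le)
    have hA1pos : 0 ≤ A1 := Finset.sum_nonneg (fun _ _ => (Real.exp_pos _).le)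
    have hB0pos : 0 < B0 := Finset.sum_pos (fun _ _ => Real.exp_pos _) Finset.univ_nonempty
    have hB1pos : 0 < B1 := Finset.sum_pos (fun _ _ => Real.exp_pos _) Finset.univ_nonempty
    have hNpos : 0 ≤ N := by positivity
    -- same first bit
    have same : ∀ x : Bool, (∑ a : Fin K → Bool, Real.exp (g (Fin.cons x a))) *
        (∑ b : Fin K → Bool, Real.exp (-f (Fin.cons x b))) ≤ N := by
      intro x
      apply ih L hL (fun b => f (Fin.cons x b)) (fun a => g (Fin.cons x a))
      intro a b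
      have := h (Fin.cons x a) (Fin.cons x b)
      rw [hammingDist_cons] at this
      simpa using this
    -- different first bit
    have diff : ∀ x y : Bool, x ≠ y → (∑ a : Fin K → Bool, Real.exp (g (Fin.cons x a))) *
        (∑ b : Fin K → Bool, Real.exp (-f (Fin.cons y b))) ≤ Real.exp L * N := by
      intro x y hxy
      have := ih L hL (fun b => f (Fin.cons y b)) (fun a => g (Fin.cons x a) - L) (by
        intro a b
        have := h (Fin.cons x a) (Fin.cons y b)
        rw [hammingDist_cons] at this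
        simp only [hxy, ne_eq, not_false_eq_true, if_true] at this
        linarith)
      have e : ∀ a : Fin K → Bool, Real.exp (g (Fin.cons x a) - L)
          = Real.exp (g (Fin.cons x a)) * Real.exp (-L) := by
        intro a; rw [← Real.exp_add]; ring_nf
      simp only [e] at this
      rw [← Finset.sum_mul] at this
      have hpos : 0 < Real.exp L := Real.exp_pos L
      have e2 : Real.exp (-L) = (Real.exp L)⁻¹ := Real.exp_neg L
      rw [e2] at this
      have := mul_le_mul_of_nonneg_left this hpos.le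
      calc _ = Real.exp L * ((∑ a : Fin K → Bool, Real.exp (g (Fin.cons x a))) * (Real.exp L)⁻¹ *
            (∑ b : Fin K → Bool, Real.exp (-f (Fin.cons y b)))) := by
            field_simp
        _ ≤ Real.exp L * N := this
    have h00 := same false
    have h11 := same true
    have h01 := diff false true (by decide)
    have h10 := diff true false (by decide)
    have tp := two_point L A0 A1 B0 B1 N hL hA0pos hA1pos hB0pos hB1pos hNpos h00 h11 h01 h10
    have hc : 2 + Real.exp L + Real.exp (-L) ≤ 4 * Real.exp (L ^ 2 / 4) := by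
      have h1 : Real.cosh (L / 2) ≤ Real.exp ((L / 2) ^ 2 / 2) := Real.cosh_le_exp_half_sq _
      have h2 : 2 + Real.exp L + Real.exp (-L) = 4 * Real.cosh (L / 2) ^ 2 := by
        rw [Real.cosh_eq]
        have e1 : Real.exp L = Real.exp (L / 2) * Real.exp (L / 2) := by
          rw [← Real.exp_add]; ring_nf
        have e2 : Real.exp (-L) = Real.exp (-(L / 2)) * Real.exp (-(L / 2)) := by
          rw [← Real.exp_add]; ring_nf
        have e3 : Real.exp (L / 2) * Real.exp (-(L / 2)) = 1 := by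
          rw [← Real.exp_add]; simp
        rw [e1, e2]
        nlinarith [e3]
      have h3 : Real.cosh (L / 2) ^ 2 ≤ Real.exp (L ^ 2 / 4) := by
        have hc0 : 0 ≤ Real.cosh (L / 2) := (Real.cosh_pos _).le
        calc Real.cosh (L / 2) ^ 2 ≤ Real.exp ((L / 2) ^ 2 / 2) ^ 2 := by gcongr
          _ = Real.exp (L ^ 2 / 4) := by
            rw [← Real.exp_nat_mul]; congr 1; push_cast; ring
      linarith
    calc (A0 + A1) * (B0 + B1) ≤ N * (2 + Real.exp L + Real.exp (-L)) := tp
      _ ≤ N * (4 * Real.exp (L ^ 2 / 4)) := by gcongr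
      _ = 4 ^ (K + 1) * Real.exp (L ^ 2 * (K + 1 : ℕ) / 4) := by
        rw [hN]
        have : Real.exp (L ^ 2 * ((K + 1 : ℕ) : ℝ) / 4) = Real.exp (L ^ 2 * K / 4) * Real.exp (L ^ 2 / 4) := by
          rw [← Real.exp_add]; congr 1; push_cast; ring
        rw [this]; ring

end Vale.Agent.Lib.P249.H53
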