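import Mathlib

/-!
# P249: the Rademacher copy of the Euclidean cube inside `ℓ_p` (definition only)
-/

namespace Vale.Agent.Lib.P249.H53

open scoped ENNReal

/-- The point of `ℓ_p` over the coordinate set `Fin K → Bool` attached to the vertex `a` of the
cube: its coordinate at `e` is `∑ i, sgn (a i) * sgn (e i)`, with `sgn false = 1`, `sgn true = -1`. -/
noncomputable def cubePt (p : ℝ≥0∞) (K : ℕ) (a : Fin K → Bool) :
    PiLp p (fun _ : Fin K → Bool => ℝ) :=
  WithLp.toLp p (fun e => ∑ i, (if a i then (-1:ℝ) else 1) * (if e i then (-1:ℝ) else 1))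

end Vale.Agent.Lib.P249.H53
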