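import Vale.Agent.Lib.P249.helper53.CubeDefs
import Vale.Agent.Lib.P249.helper53.Cube
import Vale.Agent.Lib.P249.helper25.Conc
import Vale.Agent.Lib.P249.helper59.X1
import Vale.Agent.Lib.P249.helper3.X2

/-!
# P249: a lower bound for dimension reduction of the Rademacher copy of the Euclidean cube
(helper53; assembly of `pl_cube` (helper53), `conc_cube` (helper25), `x1_upper` (helper59),
`x2_lower` and `rad_injective` (helper3))
-/

namespace Vale.Agent.Lib.P249.H53

open Finset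
open scoped ENNReal

theorem toReal_two_le (p : ℝ≥0∞) (hp : p ≠ ⊤) (hp2 : 2 ≤ p) : 2 ≤ p.toReal := by
  have h := ENNReal.toReal_mono hp hp2
  simpa using h

/-- `q`-th power of the distance of `PiLp p` over a finite index type. -/
theorem dist_rpow_eq (p : ℝ≥0∞) [Fact (1 ≤ p)] (hq : 0 < p.toReal)
    {ι : Type*} [Fintype ι] (u v : PiLp p (fun _ : ι => ℝ)) :
    dist u v ^ p.toReal = ∑ k, |u k - v k| ^ p.toReal := by
  rw [PiLp.dist_eq_sum hq]
  have h0 : 0 ≤ ∑ k, dist (u k) (v k) ^ p.toReal :=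
    Finset.sum_nonneg fun k _ => Real.rpow_nonneg dist_nonneg _
  rw [← Real.rpow_mul h0, one_div_mul_cancel hq.ne', Real.rpow_one]
  simp only [Real.dist_eq]

theorem cubePt_apply (p : ℝ≥0∞) (K : ℕ) (a e : Fin K → Bool) :
    cubePt p K a e = ∑ i, (if a i then (-1:ℝ) else 1) * (if e i then (-1:ℝ) else 1) := rfl

theorem cubePt_sub (p : ℝ≥0∞) (K : ℕ) (a b e : Fin K → Bool) :
    cubePt p K a e - cubePt p K b e =
      ∑ i, ((if a i then (-1:ℝ) else 1) - (if b i then (-1:ℝ) else 1)) * (if e i then (-1:ℝ) else 1) := by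
  rw [cubePt_apply, cubePt_apply, ← Finset.sum_sub_distrib]
  exact Finset.sum_congr rfl fun i _ => by ring

theorem cubePt_injective (p : ℝ≥0∞) (K : ℕ) : Function.Injective (cubePt p K) := by
  intro a b hab
  apply Vale.Agent.Lib.P249.H3x2.rad_injective K
  funext e
  have := congrArg (fun u : PiLp p (fun _ : Fin K → Bool => ℝ) => u e) hab
  simpa [cubePt_apply] using this

/-- The main inequality in terms of sums of powers. -/
theorem cube_lower_core (K : ℕ) (hK : 1 ≤ K) (q : ℝ) (hq : 2 ≤ q) (d : ℕ)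
    (dx : (Fin K → Bool) → (Fin K → Bool) → ℝ) (hdx0 : ∀ a b, 0 ≤ dx a b)
    (hdxq : ∀ a b, dx a b ^ q = ∑ e : Fin K → Bool,
      |∑ i, ((if a i then (-1:ℝ) else 1) - (if b i then (-1:ℝ) else 1)) * (if e i then (-1:ℝ) else 1)| ^ q)
    (y : (Fin K → Bool) → Fin d → ℝ) (dy : (Fin K → Bool) → (Fin K → Bool) → ℝ)
    (hdy0 : ∀ a b, 0 ≤ dy a b)
    (hdyq : ∀ a b, dy a b ^ q = ∑ j, |y a j - y b j| ^ q)
    (s D : ℝ) (hs : 0 < s) (hD : 1 ≤ D)
    (hlow : ∀ a b, s * dx a b ≤ dy a b) (hup : ∀ a b, dy a b ≤ D * s * dx a b) :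
    ((K : ℝ) / (64 * q ^ 3)) ^ (q / 4) ≤ 8 * D ^ q * d := by
  have hq0 : 0 < q := by linarith
  have hKpos : (0:ℝ) < K := by exact_mod_cast hK
  have hD0 : 0 < D := by linarith
  -- atoms
  set X : ℝ := (K : ℝ) ^ (q / 4) with hX
  set A : ℝ := (2 : ℝ) ^ (q / 2) with hA
  set B : ℝ := q ^ (q / 4) with hB
  have hXpos : 0 < X := Real.rpow_pos_of_pos hKpos _
  have hApos : 0 < A := Real.rpow_pos_of_pos (by norm_num) _
  have hBpos : 0 < B := Real.rpow_pos_of_pos hq0 _
  have e2q : (2 : ℝ) ^ q = A ^ 2 := by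
    rw [hA, ← Real.rpow_natCast, ← Real.rpow_mul (by norm_num)]; congr 1; push_cast; ring
  have e2q2 : (2 : ℝ) ^ (q + 2) = 4 * A ^ 2 := by
    rw [Real.rpow_add (by norm_num), e2q]; norm_num; ring
  have eqq : q ^ (q / 2) = B ^ 2 := by
    rw [hB, ← Real.rpow_natCast, ← Real.rpow_mul hq0.le]; congr 1; push_cast; ring
  have eqK : (q * K) ^ (q / 4) = B * X := by
    rw [Real.mul_rpow hq0.le hKpos.le]
  have e2K : (2 * (K : ℝ)) ^ (q / 2) = A * X ^ 2 := by
    rw [Real.mul_rpow (by norm_num) hKpos.le]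
    congr 1
    rw [hX, ← Real.rpow_natCast, ← Real.rpow_mul hKpos.le]; congr 1; push_cast; ring
  have e64 : (64 * q ^ 3) ^ (q / 4) = A ^ 3 * B ^ 3 := by
    rw [Real.mul_rpow (by norm_num) (by positivity)]
    congr 1
    · rw [hA, ← Real.rpow_natCast, ← Real.rpow_mul (by norm_num)]
      have : (64 : ℝ) = (2 : ℝ) ^ (6 : ℝ) := by norm_num
      rw [this, ← Real.rpow_mul (by norm_num)]; congr 1; push_cast; ring
    · rw [hB, ← Real.rpow_natCast, ← Real.rpow_natCast, ← Real.rpow_mul hq0.le,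
        ← Real.rpow_mul hq0.le]; congr 1; push_cast; ring
  -- constant C1 of (X1)
  set C1 : ℝ := 2 * q ^ (q / 2) * 2 ^ q * 2 ^ K with hC1
  have hC1pos : 0 < C1 := by rw [hC1, eqq, e2q]; positivity
  -- upper bound for dx
  have hx1 : ∀ a b, dx a b ^ q ≤ C1 * (hammingDist a b : ℝ) ^ (q / 2) := by
    intro a b
    rw [hdxq a b]
    exact Vale.Agent.Lib.P249.H59.x1_upper K q hq a b
  -- Lipschitz constant
  set Lam : ℝ := D * s * C1 ^ (1 / q) with hLam
  have hLam0 : 0 ≤ Lam := by rw [hLam]; positivity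
  have hdx_le : ∀ a b, dx a b ≤ C1 ^ (1 / q) * Real.sqrt (hammingDist a b) := by
    intro a b
    have h1 := hx1 a b
    have hH0 : (0:ℝ) ≤ (hammingDist a b : ℝ) := Nat.cast_nonneg _
    have h2 : (C1 * (hammingDist a b : ℝ) ^ (q / 2)) ^ (1 / q)
        = C1 ^ (1 / q) * Real.sqrt (hammingDist a b) := by
      rw [Real.mul_rpow hC1pos.le (Real.rpow_nonneg hH0 _), ← Real.rpow_mul hH0,
        Real.sqrt_eq_rpow]
      congr 2
      field_simp
    rw [← h2]
    have h3 : dx a b = (dx a b ^ q) ^ (1 / q) := by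
      rw [← Real.rpow_mul (hdx0 a b), mul_one_div_cancel hq0.ne', Real.rpow_one]
    rw [h3]
    exact Real.rpow_le_rpow (Real.rpow_nonneg (hdx0 a b) _) h1 (by positivity)
  -- coordinates of y are Lipschitz
  have hcoord : ∀ (j : Fin d) (a b : Fin K → Bool),
      |y a j - y b j| ≤ Lam * Real.sqrt (hammingDist a b) := by
    intro j a b
    have h1 : |y a j - y b j| ^ q ≤ dy a b ^ q := by
      rw [hdyq a b]
      exact Finset.single_le_sum (f := fun j => |y a j - y b j| ^ q)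
        (fun k _ => Real.rpow_nonneg (abs_nonneg _) _) (Finset.mem_univ j)
    have h2 : |y a j - y b j| ≤ dy a b := by
      by_contra hcon
      rw [not_le] at hcon
      have := Real.rpow_lt_rpow (hdy0 a b) hcon hq0
      linarith
    calc |y a j - y b j| ≤ dy a b := h2
      _ ≤ D * s * dx a b := hup a b
      _ ≤ D * s * (C1 ^ (1 / q) * Real.sqrt (hammingDist a b)) := by
        have := hdx_le a b
        have hDs : 0 ≤ D * s := by positivity
        exact mul_le_mul_of_nonneg_left this hDs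
      _ = Lam * Real.sqrt (hammingDist a b) := by rw [hLam]; ring
  have hLamq : Lam ^ q = D ^ q * s ^ q * C1 := by
    rw [hLam, Real.mul_rpow (by positivity) (by positivity), Real.mul_rpow hD0.le hs.le,
      ← Real.rpow_mul hC1pos.le, one_div_mul_cancel hq0.ne', Real.rpow_one]
  -- upper bound of the double sum
  have hupper : ∑ a, ∑ b, dy a b ^ q ≤
      d * (4 ^ K * 2 ^ (q + 2) * Lam ^ q * (q * K) ^ (q / 4)) := by
    have h1 : ∑ a, ∑ b, dy a b ^ q = ∑ j : Fin d, ∑ a, ∑ b, |y a j - y b j| ^ q := by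
      simp only [hdyq]
      calc ∑ a, ∑ b, ∑ j, |y a j - y b j| ^ q = ∑ a, ∑ j, ∑ b, |y a j - y b j| ^ q := by
            apply Finset.sum_congr rfl
            intro a _
            exact Finset.sum_comm
        _ = ∑ j, ∑ a, ∑ b, |y a j - y b j| ^ q := Finset.sum_comm
    rw [h1]
    calc ∑ j : Fin d, ∑ a, ∑ b, |y a j - y b j| ^ q
        ≤ ∑ j : Fin d, (4 ^ K * 2 ^ (q + 2) * Lam ^ q * (q * K) ^ (q / 4)) := by
          apply Finset.sum_le_sum
          intro j _
          exact Vale.Agent.Lib.P249.H25.conc_cube K hK q hq Lam hLam0 (fun a => y a j) (hcoord j)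
      _ = d * (4 ^ K * 2 ^ (q + 2) * Lam ^ q * (q * K) ^ (q / 4)) := by
          rw [Finset.sum_const, Finset.card_univ, Fintype.card_fin, nsmul_eq_mul]
  -- lower bound of the double sum
  have hlower : s ^ q * ((8:ℝ) ^ K * (2 * K) ^ (q / 2)) ≤ ∑ a, ∑ b, dy a b ^ q := by
    have h1 : ∀ a b, s ^ q * dx a b ^ q ≤ dy a b ^ q := by
      intro a b
      rw [← Real.mul_rpow hs.le (hdx0 a b)]
      exact Real.rpow_le_rpow (by have := hdx0 a b; positivity) (hlow a b) hq0.le
    calc s ^ q * ((8:ℝ) ^ K * (2 * K) ^ (q / 2))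
        ≤ s ^ q * ∑ a, ∑ b, dx a b ^ q := by
          apply mul_le_mul_of_nonneg_left _ (Real.rpow_nonneg hs.le _)
          have := Vale.Agent.Lib.P249.H3x2.x2_lower K q hq
          simpa only [hdxq] using this
      _ = ∑ a, ∑ b, s ^ q * dx a b ^ q := by
          rw [Finset.mul_sum]
          exact Finset.sum_congr rfl fun a _ => Finset.mul_sum _ _ _
      _ ≤ ∑ a, ∑ b, dy a b ^ q :=
          Finset.sum_le_sum fun a _ => Finset.sum_le_sum fun b _ => h1 a b
  have hmain := le_trans hlower hupper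
  rw [hLamq, e2q2, eqK, e2K, hC1, eqq, e2q] at hmain
  -- hmain : s^q * (8^K * (A * X^2)) ≤ d * (4^K * (4*A^2) * (D^q * s^q * (2 * B^2 * A^2 * 2^K)) * (B * X))
  have hsq : 0 < s ^ q := Real.rpow_pos_of_pos hs _
  have hDq : 0 < D ^ q := Real.rpow_pos_of_pos hD0 _
  have h8 : (8:ℝ) ^ K = 4 ^ K * 2 ^ K := by rw [← mul_pow]; norm_num
  have h4pos : (0:ℝ) < 4 ^ K := by positivity
  have h2pos : (0:ℝ) < 2 ^ K := by positivity
  have hfin : X ≤ 8 * D ^ q * d * (A ^ 3 * B ^ 3) := by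
    rw [h8] at hmain
    have hpos : 0 < s ^ q * (4 ^ K * 2 ^ K) * A * X := by positivity
    have : s ^ q * (4 ^ K * 2 ^ K) * A * X * X ≤
        s ^ q * (4 ^ K * 2 ^ K) * A * X * (8 * D ^ q * d * (A ^ 3 * B ^ 3)) := by
      calc s ^ q * (4 ^ K * 2 ^ K) * A * X * X = s ^ q * (4 ^ K * 2 ^ K * (A * X ^ 2)) := by ring
        _ ≤ _ := hmain
        _ = _ := by ring
    exact le_of_mul_le_mul_left this hpos
  rw [Real.div_rpow hKpos.le (by positivity), e64, div_le_iff₀ (by positivity)]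
  exact hfin

/-- The lower bound for the Rademacher copy of the Euclidean cube. -/
theorem cube_lower (p : ℝ≥0∞) [Fact (1 ≤ p)] (hp : p ≠ ⊤) (hp2 : 2 ≤ p) (K : ℕ) (hK : 1 ≤ K) :
    Fintype.card (Fin K → Bool) = 2 ^ K ∧ Function.Injective (cubePt p K) ∧
    ∀ (d : ℕ) (y : (Fin K → Bool) → PiLp p (fun _ : Fin d => ℝ)) (s D : ℝ), 0 < s → 1 ≤ D →
      (∀ a b, s * dist (cubePt p K a) (cubePt p K b) ≤ dist (y a) (y b) ∧
        dist (y a) (y b) ≤ D * s * dist (cubePt p K a) (cubePt p K b)) →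
      ((K : ℝ) / (64 * p.toReal ^ 3)) ^ (p.toReal / 4) ≤ 8 * D ^ p.toReal * d := by
  have hq2 : 2 ≤ p.toReal := toReal_two_le p hp hp2
  have hq0 : 0 < p.toReal := by linarith
  refine ⟨by simp, cubePt_injective p K, ?_⟩
  intro d y s D hs hD h
  refine cube_lower_core K hK p.toReal hq2 d
    (fun a b => dist (cubePt p K a) (cubePt p K b)) (fun a b => dist_nonneg) ?_
    (fun a j => y a j) (fun a b => dist (y a) (y b)) (fun a b => dist_nonneg) ?_
    s D hs hD (fun a b => (h a b).1) (fun a b => (h a b).2)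
  · intro a b
    rw [dist_rpow_eq p hq0]
    exact Finset.sum_congr rfl fun e _ => by rw [cubePt_sub]
  · intro a b
    exact dist_rpow_eq p hq0 (y a) (y b)

end Vale.Agent.Lib.P249.H53
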